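import Vale.Agent.P251CG.Lax
import Vale.Agent.P251.H.SpaceFun

/-!
# P251C: all mapping cones of `M` give distinguished triangles

`dist_flat`: mapping cones of flat objects; `LocData.dist_cone`: arbitrary mapping cones;
`LocData.eSF`: the comparison of the suspension spectrum functor with `J ⋙ L`.
-/

open CategoryTheory MonoidalCategory Limits Pretriangulated
open Functor.LaxMonoidal Functor.OplaxMonoidal

namespace Vale.Agent.P251CG

open Vale.Agent.P251 Vale.Agent.P251.H Vale.Agent.P251.H.StabInput Vale.Agent.P251CL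
open Vale.Agent.P251.G Vale.Agent.P251.G.LC

universe v' u' v u

variable {M : Type u} [Category.{v} M] [MonoidalCategory M] [SymmetricCategory M]
    [MonoidalClosed M] [HasZeroMorphisms M] [HasColimitsOfSize.{0, 0} M] [StabInput M]

theorem collM_eq : (collM : CI M ⟶ S M) = (J M).map openPart := rfl

variable (GG : ObjectProperty M) [IsTest GG] {D₀ : Type u'} [Category.{v'} D₀]
  (L₀ : FlatCat (piW GG) ⥤ D₀) [L₀.IsLocalization (CofCat.W (C := FlatCat (piW GG)))]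

/-- the localization of the flat objects -/
noncomputable abbrev LT : FlatCat (piW GG) ⥤ TT (piModel GG) L₀ := TT.L (piModel GG) L₀

/-- the circle goes to the shift of the unit -/
noncomputable def lineT : (LT GG L₀).obj (flatCone (piW GG)).S ≅
    (𝟙_ (TT (piModel GG) L₀))⟦(1 : ℤ)⟧ := lineSF GG L₀

theorem third_T {A P : FlatCat (piW GG)} (d : P ⟶ A ⊗ (flatCone (piW GG)).S) :
    (LT GG L₀).map d ≫ δ (LT GG L₀) A (flatCone (piW GG)).S ≫
        ((LT GG L₀).obj A ◁ (lineT GG L₀).hom) ≫ (T.TensorTriangulated.e ((LT GG L₀).obj A)).hom =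
      (LT GG L₀).map (d ≫ ((flatCone (piW GG)).suspIso A).hom) ≫
        (TT.τ (piModel GG) L₀).hom.app A := by
  refine (congrArg (fun g => (LT GG L₀).map d ≫ δ (LT GG L₀) A (flatCone (piW GG)).S ≫ g)
    (lineSF_e GG L₀ _)).trans ?_
  have h := third_aux (LT GG L₀) (flatCone (piW GG)) d (𝟙 _) (K := (TT.inv (piModel GG) L₀).pow 1)
    (λ_ ((TT.L (piModel GG) L₀).obj (piModel GG).m.S)).symm
  rw [CategoryTheory.Functor.map_id, Category.id_comp, Category.id_comp] at h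
  exact h

/-- mapping cones of flat objects -/
theorem dist_flat {A B P : FlatCat (piW GG)} (f : A ⟶ B) (k : A ⊗ (flatCone (piW GG)).CI ⟶ P)
    (i : B ⟶ P) (d : P ⟶ A ⊗ (flatCone (piW GG)).S)
    (hP : IsPushout ((flatCone (piW GG)).coneIn A) f k i)
    (hk : k ≫ d = A ◁ (flatCone (piW GG)).s) (hi : i ≫ d = 0) :
    Triangle.mk ((LT GG L₀).map f) ((LT GG L₀).map i)
      ((LT GG L₀).map d ≫ δ (LT GG L₀) A (flatCone (piW GG)).S ≫
        ((LT GG L₀).obj A ◁ (lineT GG L₀).hom) ≫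
          (T.TensorTriangulated.e ((LT GG L₀).obj A)).hom) ∈ distTriang (TT (piModel GG) L₀) := by
  have e3 : (flatCone (piW GG)).coneIn A ≫ ((flatCone (piW GG)).coneIso A).hom =
      𝟙 _ ≫ CofCat.cin A :=
    ((flatCone (piW GG)).coneIn_coneIso _).trans (Category.id_comp _).symm
  have hP' := hP.flip.of_iso (Iso.refl _) (Iso.refl _) ((flatCone (piW GG)).coneIso A)
    (Iso.refl _) (by simp) e3 (f' := f) (inl' := i)
    (inr' := ((flatCone (piW GG)).coneIso A).inv ≫ k) (by simp) (by simp)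
  have h := dist_cone (TT.τ (piModel GG) L₀) f hP'
    (d := d ≫ ((flatCone (piW GG)).suspIso A).hom)
    (by rw [reassoc_of% hi, zero_comp])
    (by rw [Category.assoc, reassoc_of% hk, ConeModel.s_suspIso, Iso.inv_hom_id_assoc])
  have e4 := third_T GG L₀ d
  exact e4 ▸ h

namespace LocData

variable {GG L₀} (R : LocData (piW GG) (LT GG L₀))

/-- the circle of `M` goes to the shift of the unit -/
noncomputable def line : R.L.obj (S M) ≅ (𝟙_ (TT (piModel GG) L₀))⟦(1 : ℤ)⟧ :=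
  R.phi (flatCone (piW GG)).S ≪≫ lineT GG L₀

instance (X : M) : IsIso (R.mu X (S M)) := R.isIso_mu_right X (flatInput (piW GG)).flat_S

/-- **All mapping cones of `M` give distinguished triangles.** -/
theorem dist_cone {X Y C : M} {f : X ⟶ Y} {k : X ⊗ CI M ⟶ C} {i : Y ⟶ C} {d : C ⟶ X ⊗ S M}
    (h : IsCone f k i d) :
    Triangle.mk (R.L.map f) (R.L.map i)
      (R.L.map d ≫ inv (R.mu X (S M)) ≫ (R.L.obj X ◁ R.line.hom) ≫
        (T.TensorTriangulated.e (R.L.obj X)).hom) ∈ distTriang (TT (piModel GG) L₀) := by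
  obtain ⟨P, k', i', d', h'⟩ := IsCone.exists_isCone (R.flm f).hom
  have hP : Flat (piW GG) P := (flatInput (piW GG)).flat_pushout h'.po (hCof_coneBase _)
    (R.fl X).property ((flatInput (piW GG)).flat_tensor (R.fl X).property (flat_CI _))
    (R.fl Y).property
  let P' : FlatCat (piW GG) := ⟨P, hP⟩
  have hw : coneBase (R.fl X).obj ≫ R.qq X ▷ CI M ≫ k = (R.flm f).hom ≫ R.qq Y ≫ i := by
    rw [StabInput.coneBase_naturality_assoc, h.po.w, R.qq_nat_assoc]
  let c : P ⟶ C := h'.po.desc _ _ hw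
  have c1 : k' ≫ c = R.qq X ▷ CI M ≫ k := h'.po.inl_desc _ _ _
  have c2 : i' ≫ c = R.qq Y ≫ i := h'.po.inr_desc _ _ _
  have hc : piW GG c := ((puppeInput (M := M)).five_cone h' h (R.qq X) (R.qq Y) c (R.qq_nat f) c1 c2).1
    (R.W_qq X) (R.W_qq Y)
  have c3 : c ≫ d = d' ≫ (R.qq X ⊗ₘ 𝟙 (S M)) := by
    rw [tensorHom_id]
    apply h'.po.hom_ext
    · rw [reassoc_of% c1, h.kq, reassoc_of% h'.kq, whisker_exchange]
    · rw [reassoc_of% c2, h.iq, reassoc_of% h'.iq, zero_comp, comp_zero]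
  let k₁ : R.fl X ⊗ (flatCone (piW GG)).CI ⟶ P' := ObjectProperty.homMk k'
  let i₁ : R.fl Y ⟶ P' := ObjectProperty.homMk i'
  let d₁ : P' ⟶ R.fl X ⊗ (flatCone (piW GG)).S := ObjectProperty.homMk d'
  have hd := dist_flat GG L₀ (R.flm f) k₁ i₁ d₁ (isPushout_flat_of_hom h'.po)
    (ObjectProperty.hom_ext _ h'.kq) (ObjectProperty.hom_ext _ h'.iq)
  have := R.isIso_lf P' c hc
  let a₁ : (LT GG L₀).obj (R.fl X) ≅ R.L.obj X := asIso (R.lf (R.fl X) (R.qq X))
  let a₂ : (LT GG L₀).obj (R.fl Y) ≅ R.L.obj Y := asIso (R.lf (R.fl Y) (R.qq Y))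
  let a₃ : (LT GG L₀).obj P' ≅ R.L.obj C := asIso (R.lf P' c)
  refine isomorphic_distinguished _ hd _ (Triangle.isoMk _ _ a₁ a₂ a₃ ?_ ?_ ?_).symm
  · change (LT GG L₀).map (R.flm f) ≫ R.lf (R.fl Y) (R.qq Y) =
      R.lf (R.fl X) (R.qq X) ≫ R.L.map f
    rw [map_lf, lf_map, qq_nat]
  · change (LT GG L₀).map i₁ ≫ R.lf P' c = R.lf (R.fl Y) (R.qq Y) ≫ R.L.map i
    rw [map_lf, lf_map]
    exact congrArg _ c2
  · change ((LT GG L₀).map d₁ ≫ δ (LT GG L₀) (R.fl X) (flatCone (piW GG)).S ≫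
        ((LT GG L₀).obj (R.fl X) ◁ (lineT GG L₀).hom) ≫
          (T.TensorTriangulated.e ((LT GG L₀).obj (R.fl X))).hom) ≫
        (R.lf (R.fl X) (R.qq X))⟦(1 : ℤ)⟧' =
      R.lf P' c ≫ R.L.map d ≫ inv (R.mu X (S M)) ≫ (R.L.obj X ◁ R.line.hom) ≫
        (T.TensorTriangulated.e (R.L.obj X)).hom
    have e1 : R.lf P' c ≫ R.L.map d = (LT GG L₀).map d₁ ≫
        R.lf (R.fl X ⊗ (flatCone (piW GG)).S) (X := X ⊗ S M) (R.qq X ⊗ₘ 𝟙 (S M)) := by
      rw [lf_map, map_lf]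
      exact congrArg _ c3
    have e2 : (R.lf (R.fl X) (R.qq X) ⊗ₘ R.lf (flatCone (piW GG)).S (X := S M) (𝟙 (S M))) ≫
        R.mu X (S M) = μ (LT GG L₀) (R.fl X) (flatCone (piW GG)).S ≫
          R.lf (R.fl X ⊗ (flatCone (piW GG)).S) (X := X ⊗ S M) (R.qq X ⊗ₘ 𝟙 (S M)) :=
      R.lf_mu (A := R.fl X) (B := (flatCone (piW GG)).S) (X := X) (Y := S M) (R.qq X) (𝟙 (S M))
    have e3 : R.lf (R.fl X ⊗ (flatCone (piW GG)).S) (X := X ⊗ S M) (R.qq X ⊗ₘ 𝟙 (S M)) ≫
        inv (R.mu X (S M)) = δ (LT GG L₀) (R.fl X) (flatCone (piW GG)).S ≫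
          (R.lf (R.fl X) (R.qq X) ⊗ₘ R.lf (flatCone (piW GG)).S (X := S M) (𝟙 (S M))) := by
      rw [IsIso.comp_inv_eq, Category.assoc, e2, Functor.Monoidal.δ_μ_assoc]
    have e4 : R.lf (flatCone (piW GG)).S (X := S M) (𝟙 (S M)) ≫ R.line.hom =
        (lineT GG L₀).hom := by
      have e5 : R.lf (flatCone (piW GG)).S (X := S M) (𝟙 (S M)) =
        (R.phi (flatCone (piW GG)).S).inv := R.lf_id (flatCone (piW GG)).S
      exact (congrArg (· ≫ R.line.hom) e5).trans ((R.phi (flatCone (piW GG)).S).inv_hom_id_assoc _)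
    rw [reassoc_of% e1, reassoc_of% e3, ← id_tensorHom, ← id_tensorHom,
      tensorHom_comp_tensorHom_assoc, e4, Category.comp_id, Category.assoc, Category.assoc,
      Category.assoc, ← T.TensorTriangulated.e_naturality, ← tensorHom_id,
      tensorHom_comp_tensorHom_assoc, Category.id_comp, Category.comp_id]

end LocData

end Vale.Agent.P251CG
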