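import Vale.Agent.P251CL.FlatLoc

/-!
# P251C: the localization of `M` is lax symmetric monoidal

`LocData W L₀`: a flat replacement `q : Q ⟶ 1` and a functor `L` on `M` which inverts `W` and
agrees with `L₀` on flat objects.  If `L₀` is braided then `L` is lax braided and `μ X Y` is
invertible if one factor is flat.
-/

open CategoryTheory MonoidalCategory Limits
open Functor.LaxMonoidal Functor.OplaxMonoidal

namespace Vale.Agent.P251CG

open Vale.Agent.P251.H Vale.Agent.P251.H.StabInput Vale.Agent.P251CL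

universe v' u' v u

variable {M : Type u} [Category.{v} M] [MonoidalCategory M] [SymmetricCategory M]
    [MonoidalClosed M] [HasZeroMorphisms M] [HasColimitsOfSize.{0, 0} M] [StabInput M]
    {D : Type u'} [Category.{v'} D]

/-- A functorial flat replacement and an extension `L` of `L₀` which inverts `W`. -/
structure LocData (W : MorphismProperty M) (L₀ : FlatCat W ⥤ D) where
  /-- the replacement -/
  fl : M → FlatCat W
  /-- the replacement on morphisms -/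
  flm : ∀ {X Y : M}, (X ⟶ Y) → (fl X ⟶ fl Y)
  /-- the natural map -/
  qq : ∀ X, (fl X).obj ⟶ X
  qq_nat : ∀ {X Y : M} (f : X ⟶ Y), (flm f).hom ≫ qq Y = qq X ≫ f
  W_qq : ∀ X, W (qq X)
  /-- the localization functor -/
  L : M ⥤ D
  inverts : W.IsInvertedBy L
  /-- on flat objects the two functors agree -/
  phi : ∀ A : FlatCat W, L.obj A.obj ≅ L₀.obj A
  phi_nat : ∀ {A B : FlatCat W} (f : A ⟶ B),
    L.map f.hom ≫ (phi B).hom = (phi A).hom ≫ L₀.map f

attribute [reassoc] LocData.phi_nat LocData.qq_nat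

/-- The data given by a functorial flat replacement. -/
noncomputable def locData (W : MorphismProperty M) [GoodW W] (Q : M ⥤ M)
    (hQ : ∀ X, Flat W (Q.obj X)) (q : Q ⟶ 𝟭 M) (hq : ∀ X, W (q.app X)) (L₀ : FlatCat W ⥤ D)
    [L₀.IsLocalization (CofCat.W (C := FlatCat W))] : LocData W L₀ where
  fl X := (liftQ W Q hQ).obj X
  flm f := (liftQ W Q hQ).map f
  qq X := q.app X
  qq_nat f := q.naturality f
  W_qq := hq
  L := liftQ W Q hQ ⋙ L₀
  inverts :=
    haveI := isLocalization_flat W Q hQ q hq L₀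
    Localization.inverts _ W
  phi A := (flatIso W Q hQ q hq L₀).app A
  phi_nat f := (flatIso W Q hQ q hq L₀).hom.naturality f

instance (W : MorphismProperty M) [GoodW W] (Q : M ⥤ M)
    (hQ : ∀ X, Flat W (Q.obj X)) (q : Q ⟶ 𝟭 M) (hq : ∀ X, W (q.app X)) (L₀ : FlatCat W ⥤ D)
    [L₀.IsLocalization (CofCat.W (C := FlatCat W))] :
    (locData W Q hQ q hq L₀).L.IsLocalization W := isLocalization_flat W Q hQ q hq L₀

namespace LocData

variable {W : MorphismProperty M} {L₀ : FlatCat W ⥤ D} (R : LocData W L₀)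

/-- the morphism of the localization given by a map from a flat object -/
def lf (A : FlatCat W) {X : M} (g : A.obj ⟶ X) : L₀.obj A ⟶ R.L.obj X :=
  (R.phi A).inv ≫ R.L.map g

omit [SymmetricCategory M] [MonoidalClosed M] [HasZeroMorphisms M] [HasColimitsOfSize.{0, 0} M]
  [StabInput M]

@[reassoc]
theorem lf_map (A : FlatCat W) {X Y : M} (g : A.obj ⟶ X) (h : X ⟶ Y) :
    R.lf A g ≫ R.L.map h = R.lf A (g ≫ h) := by
  rw [lf, lf, Category.assoc, Functor.map_comp]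

@[reassoc]
theorem map_lf {A B : FlatCat W} (f : A ⟶ B) {X : M} (g : B.obj ⟶ X) :
    L₀.map f ≫ R.lf B g = R.lf A (f.hom ≫ g) := by
  rw [lf, lf, Functor.map_comp, Iso.eq_inv_comp, ← phi_nat_assoc, Iso.hom_inv_id_assoc]

theorem lf_id (A : FlatCat W) : R.lf A (𝟙 A.obj) = (R.phi A).inv := by
  rw [lf, CategoryTheory.Functor.map_id, Category.comp_id]

@[reassoc]
theorem phi_lf (A : FlatCat W) {X : M} (g : A.obj ⟶ X) :
    (R.phi A).hom ≫ R.lf A g = R.L.map g := by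
  rw [lf, Iso.hom_inv_id_assoc]

theorem isIso_lf (A : FlatCat W) {X : M} (g : A.obj ⟶ X) (hg : W g) : IsIso (R.lf A g) := by
  have : IsIso (R.L.map g) := R.inverts g hg
  unfold lf
  infer_instance

instance (X : M) : IsIso (R.lf (R.fl X) (R.qq X)) := R.isIso_lf _ _ (R.W_qq X)

/-- the replacement map of a flat object -/
def fq (A : FlatCat W) : R.fl A.obj ⟶ A := ObjectProperty.homMk (R.qq A.obj)

theorem fq_hom (A : FlatCat W) : (R.fq A).hom = R.qq A.obj := rfl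

instance (A : FlatCat W) : IsIso (L₀.map (R.fq A)) := by
  have h : L₀.map (R.fq A) ≫ (R.phi A).inv = R.lf (R.fl A.obj) (R.qq A.obj) := by
    rw [← lf_id, map_lf, Category.comp_id, fq_hom]
  have : IsIso (L₀.map (R.fq A) ≫ (R.phi A).inv) := by rw [h]; infer_instance
  exact IsIso.of_isIso_comp_right _ (R.phi A).inv

@[reassoc]
theorem fq_lf (A : FlatCat W) {X : M} (g : A.obj ⟶ X) :
    L₀.map (R.fq A) ≫ R.lf A g = L₀.map (R.flm g) ≫ R.lf (R.fl X) (R.qq X) := by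
  rw [map_lf, map_lf, qq_nat, fq_hom]

end LocData

namespace LocData

variable {W : MorphismProperty M} [hW : GoodW W] {L₀ : FlatCat W ⥤ D} (R : LocData W L₀)
  [MonoidalCategory D] [L₀.Monoidal]

/-- the tensorator -/
noncomputable def mu (X Y : M) : R.L.obj X ⊗ R.L.obj Y ⟶ R.L.obj (X ⊗ Y) :=
  (inv (R.lf (R.fl X) (R.qq X)) ⊗ₘ inv (R.lf (R.fl Y) (R.qq Y))) ≫ μ L₀ (R.fl X) (R.fl Y) ≫
    R.lf (R.fl X ⊗ R.fl Y) (X := X ⊗ Y) (R.qq X ⊗ₘ R.qq Y)

/-- the unit -/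
noncomputable def eps : 𝟙_ D ⟶ R.L.obj (𝟙_ M) :=
  ε L₀ ≫ R.lf (𝟙_ (FlatCat W)) (X := 𝟙_ M) (𝟙 (𝟙_ M))

/-- the characterization of the tensorator -/
@[reassoc]
theorem lf_mu {A B : FlatCat W} {X Y : M} (g : A.obj ⟶ X) (h : B.obj ⟶ Y) :
    (R.lf A g ⊗ₘ R.lf B h) ≫ R.mu X Y =
      μ L₀ A B ≫ R.lf (A ⊗ B) (X := X ⊗ Y) (g ⊗ₘ h) := by
  rw [← cancel_epi (L₀.map (R.fq A) ⊗ₘ L₀.map (R.fq B)), tensorHom_comp_tensorHom_assoc, fq_lf,
    fq_lf, mu, tensorHom_comp_tensorHom_assoc, Category.assoc, Category.assoc, IsIso.hom_inv_id,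
    IsIso.hom_inv_id, Category.comp_id, Category.comp_id, μ_natural_assoc, μ_natural_assoc,
    map_lf, map_lf]
  congr 2
  change ((R.flm g).hom ⊗ₘ (R.flm h).hom) ≫ (R.qq X ⊗ₘ R.qq Y) =
    (R.qq A.obj ⊗ₘ R.qq B.obj) ≫ (g ⊗ₘ h)
  rw [tensorHom_comp_tensorHom, tensorHom_comp_tensorHom, qq_nat, qq_nat]

@[reassoc]
theorem mu_nat {X Y X' Y' : M} (f : X ⟶ X') (g : Y ⟶ Y') :
    (R.L.map f ⊗ₘ R.L.map g) ≫ R.mu X' Y' = R.mu X Y ≫ R.L.map (f ⊗ₘ g) := by
  rw [← cancel_epi (R.lf (R.fl X) (R.qq X) ⊗ₘ R.lf (R.fl Y) (R.qq Y)),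
    tensorHom_comp_tensorHom_assoc, lf_map, lf_map, lf_mu, lf_mu_assoc, lf_map,
    tensorHom_comp_tensorHom]

@[reassoc]
theorem phi_inv_mu (A B : FlatCat W) :
    ((R.phi A).inv ⊗ₘ (R.phi B).inv) ≫ R.mu A.obj B.obj = μ L₀ A B ≫ (R.phi (A ⊗ B)).inv := by
  rw [← lf_id, ← lf_id, lf_mu, ← lf_id, id_tensorHom_id]
  rfl

theorem isIso_mu_of_W {X Y : M} (h : W (R.qq X ⊗ₘ R.qq Y)) : IsIso (R.mu X Y) := by
  have := R.isIso_lf (R.fl X ⊗ R.fl Y) (X := X ⊗ Y) (R.qq X ⊗ₘ R.qq Y) h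
  unfold mu
  infer_instance

/-- `μ X Y` is invertible if `X` is flat -/
theorem isIso_mu_left {X : M} (hX : Flat W X) (Y : M) : IsIso (R.mu X Y) := by
  refine R.isIso_mu_of_W ?_
  rw [tensorHom_def]
  exact hW.comp _ _ ((flatInput W).W_whiskerRight (R.fl Y).property _ (R.W_qq X))
    (hX _ (R.W_qq Y))

/-- `μ X Y` is invertible if `Y` is flat -/
theorem isIso_mu_right (X : M) {Y : M} (hY : Flat W Y) : IsIso (R.mu X Y) := by
  refine R.isIso_mu_of_W ?_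
  rw [tensorHom_def']
  exact hW.comp _ _ ((R.fl X).property _ (R.W_qq Y))
    ((flatInput W).W_whiskerRight hY _ (R.W_qq X))

instance : IsIso R.eps := by
  have := R.isIso_lf (𝟙_ (FlatCat W)) (X := 𝟙_ M) (𝟙 (𝟙_ M)) (hW.isIso _)
  unfold eps
  infer_instance

theorem mu_assoc (X Y Z : M) :
    R.mu X Y ▷ R.L.obj Z ≫ R.mu (X ⊗ Y) Z ≫ R.L.map (α_ X Y Z).hom =
      (α_ _ _ _).hom ≫ R.L.obj X ◁ R.mu Y Z ≫ R.mu X (Y ⊗ Z) := by
  have h3 : ((R.qq X ⊗ₘ R.qq Y) ⊗ₘ R.qq Z) ≫ (α_ X Y Z).hom =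
      (α_ (R.fl X) (R.fl Y) (R.fl Z)).hom.hom ≫ (R.qq X ⊗ₘ (R.qq Y ⊗ₘ R.qq Z)) :=
    associator_naturality _ _ _
  rw [← cancel_epi ((R.lf (R.fl X) (R.qq X) ⊗ₘ R.lf (R.fl Y) (R.qq Y)) ⊗ₘ R.lf (R.fl Z) (R.qq Z)),
    associator_naturality_assoc, ← tensorHom_id, ← id_tensorHom, tensorHom_comp_tensorHom_assoc,
    tensorHom_comp_tensorHom_assoc, lf_mu, lf_mu, Category.comp_id, Category.comp_id,
    ← Category.id_comp (R.lf (R.fl Z) (R.qq Z)), ← tensorHom_comp_tensorHom_assoc, lf_mu_assoc,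
    ← Category.id_comp (R.lf (R.fl X) (R.qq X)), ← tensorHom_comp_tensorHom_assoc, lf_mu,
    lf_map, tensorHom_id, id_tensorHom, ← Functor.LaxMonoidal.associativity_assoc, map_lf]
  exact congrArg (_ ≫ ·) (congrArg (_ ≫ ·) (congrArg _ h3))

theorem mu_left_unit (X : M) : (λ_ (R.L.obj X)).hom =
    R.eps ▷ R.L.obj X ≫ R.mu (𝟙_ M) X ≫ R.L.map (λ_ X).hom := by
  have h3 : (λ_ (R.fl X)).hom.hom ≫ R.qq X = (𝟙 (𝟙_ M) ⊗ₘ R.qq X) ≫ (λ_ X).hom := by
    rw [id_tensorHom]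
    exact (leftUnitor_naturality _).symm
  rw [← cancel_epi (𝟙_ D ◁ R.lf (R.fl X) (R.qq X)), leftUnitor_naturality, ← tensorHom_def'_assoc,
    eps, ← Category.id_comp (R.lf (R.fl X) (R.qq X)), ← tensorHom_comp_tensorHom_assoc,
    lf_mu_assoc, lf_map, tensorHom_id, Category.id_comp,
    Functor.LaxMonoidal.left_unitality L₀, Category.assoc,
    Category.assoc, map_lf]
  exact congrArg (_ ≫ ·) (congrArg (_ ≫ ·) (congrArg _ h3))

theorem mu_right_unit (X : M) : (ρ_ (R.L.obj X)).hom =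
    R.L.obj X ◁ R.eps ≫ R.mu X (𝟙_ M) ≫ R.L.map (ρ_ X).hom := by
  have h3 : (ρ_ (R.fl X)).hom.hom ≫ R.qq X = (R.qq X ⊗ₘ 𝟙 (𝟙_ M)) ≫ (ρ_ X).hom := by
    rw [tensorHom_id]
    exact (rightUnitor_naturality _).symm
  rw [← cancel_epi (R.lf (R.fl X) (R.qq X) ▷ 𝟙_ D), rightUnitor_naturality, ← tensorHom_def_assoc,
    eps, ← Category.id_comp (R.lf (R.fl X) (R.qq X)), ← tensorHom_comp_tensorHom_assoc,
    lf_mu_assoc, lf_map, id_tensorHom, Category.id_comp,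
    Functor.LaxMonoidal.right_unitality L₀, Category.assoc,
    Category.assoc, map_lf]
  exact congrArg (_ ≫ ·) (congrArg (_ ≫ ·) (congrArg _ h3))

noncomputable instance : R.L.LaxMonoidal where
  ε := R.eps
  μ := R.mu
  μ_natural_left f X := by
    rw [← tensorHom_id, ← tensorHom_id, ← mu_nat, CategoryTheory.Functor.map_id]
  μ_natural_right X f := by
    rw [← id_tensorHom, ← id_tensorHom, ← mu_nat, CategoryTheory.Functor.map_id]
  associativity := R.mu_assoc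
  left_unitality := R.mu_left_unit
  right_unitality := R.mu_right_unit

theorem L_μ (X Y : M) : μ R.L X Y = R.mu X Y := rfl

theorem L_ε : ε R.L = R.eps := rfl

end LocData

namespace LocData

variable {W : MorphismProperty M} [hW : GoodW W] {L₀ : FlatCat W ⥤ D} (R : LocData W L₀)
  [MonoidalCategory D] [BraidedCategory D] [L₀.Braided]

theorem mu_braid (X Y : M) : R.mu X Y ≫ R.L.map (β_ X Y).hom =
    (β_ (R.L.obj X) (R.L.obj Y)).hom ≫ R.mu Y X := by
  have h3 : (R.qq X ⊗ₘ R.qq Y) ≫ (β_ X Y).hom =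
      (β_ (R.fl X) (R.fl Y)).hom.hom ≫ (R.qq Y ⊗ₘ R.qq X) :=
    BraidedCategory.braiding_naturality _ _
  rw [← cancel_epi (R.lf (R.fl X) (R.qq X) ⊗ₘ R.lf (R.fl Y) (R.qq Y)), lf_mu_assoc, lf_map,
    BraidedCategory.braiding_naturality_assoc, lf_mu, ← Functor.LaxBraided.braided_assoc, map_lf]
  exact congrArg (_ ≫ ·) (congrArg _ h3)

noncomputable instance : R.L.LaxBraided where
  braided := R.mu_braid

end LocData

end Vale.Agent.P251CG
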